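import Mathlib.Geometry.Manifold.LocalDiffeomorph
import Mathlib.Geometry.Manifold.ContMDiff.Atlas
import Mathlib.Topology.Covering.Basic
import Mathlib.Analysis.Complex.Basic
import Vale.Agent.P300.CoverDefs

/-! The manifold structure pulled back along a local homeomorphism. -/

open scoped Manifold ContDiff Topology

namespace Vale.Agent.P300.H903

variable {H V X : Type*} [TopologicalSpace H] [TopologicalSpace V] [TopologicalSpace X]
  [ChartedSpace H X]

/-- the local inverse at a point as an open partial homeomorphism of `V` -/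
noncomputable def loc {p : V → X} (hp : IsLocalHomeomorph p) (v : V) : OpenPartialHomeomorph V X :=
  (hp v).choose

omit [ChartedSpace H X] in
theorem mem_loc {p : V → X} (hp : IsLocalHomeomorph p) (v : V) : v ∈ (loc hp v).source :=
  (hp v).choose_spec.1

omit [ChartedSpace H X] in
theorem loc_coe {p : V → X} (hp : IsLocalHomeomorph p) (v : V) : p = loc hp v :=
  (hp v).choose_spec.2

/-- the charted space structure pulled back along a local homeomorphism -/
@[reducible] noncomputable def pullCharted {p : V → X} (hp : IsLocalHomeomorph p) :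
    ChartedSpace H V where
  atlas := {φ | ∃ e : OpenPartialHomeomorph V X, p = e ∧ ∃ c ∈ atlas H X, φ = e.trans c}
  chartAt v := (loc hp v).trans (chartAt H (p v))
  mem_chart_source v := by
    rw [OpenPartialHomeomorph.trans_source]
    refine ⟨mem_loc hp v, ?_⟩
    rw [Set.mem_preimage, ← loc_coe hp v]
    exact mem_chart_source H (p v)
  chart_mem_atlas v := ⟨loc hp v, loc_coe hp v, chartAt H (p v), chart_mem_atlas H (p v), rfl⟩

omit [ChartedSpace H X] in
/-- two local inverses differ by a restriction of the identity -/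
theorem symm_trans_eq {p : V → X} {e e' : OpenPartialHomeomorph V X} (he : p = e) (he' : p = e')
    {y : X} (hy : y ∈ e.target) : e' (e.symm y) = y := by
  rw [← he', he]
  exact e.right_inv hy

/-- the pulled back structure has the same structure groupoid -/
theorem pullGroupoid (G : StructureGroupoid H) [HasGroupoid X G] [ClosedUnderRestriction G]
    {p : V → X} (hp : IsLocalHomeomorph p) :
    @HasGroupoid H _ V _ (pullCharted hp) G := by
  let := pullCharted (H := H) hp
  refine ⟨?_⟩
  rintro φ φ' ⟨e, he, c, hc, rfl⟩ ⟨e', he', c', hc', rfl⟩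
  have h1 : c.symm.trans c' ∈ G := HasGroupoid.compatible hc hc'
  have hrw : (e.trans c).symm.trans (e'.trans c') =
      (c.symm.trans (e.symm.trans e')).trans c' := by
    rw [OpenPartialHomeomorph.trans_symm_eq_symm_trans_symm, OpenPartialHomeomorph.trans_assoc,
      OpenPartialHomeomorph.trans_assoc, OpenPartialHomeomorph.trans_assoc]
  rw [hrw]
  set S : Set H := ((c.symm.trans (e.symm.trans e')).trans c').source with hS
  have hSo : IsOpen S := OpenPartialHomeomorph.open_source _
  have h2 : (c.symm.trans c').restr S ∈ G := closedUnderRestriction' h1 hSo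
  have key : ∀ x ∈ S, x ∈ c.target ∧ c.symm x ∈ e.target ∧ e.symm (c.symm x) ∈ e'.source ∧
      c.symm x ∈ c'.source ∧ e' (e.symm (c.symm x)) = c.symm x := by
    intro x hx
    rw [hS, OpenPartialHomeomorph.trans_source, OpenPartialHomeomorph.trans_source,
      OpenPartialHomeomorph.trans_source] at hx
    obtain ⟨⟨hx1, hx2, hx3⟩, hx4⟩ := hx
    have h5 := symm_trans_eq he he' hx2
    refine ⟨hx1, hx2, hx3, ?_, h5⟩
    have : e' (e.symm (c.symm x)) ∈ c'.source := hx4
    rwa [h5] at this
  refine G.mem_of_eqOnSource h2 ⟨?_, ?_⟩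
  · rw [OpenPartialHomeomorph.restr_source, hSo.interior_eq]
    ext x
    refine ⟨fun hx => ⟨⟨(key x hx).1, (key x hx).2.2.2.1⟩, hx⟩, fun hx => hx.2⟩
  · intro x hx
    show c' (e' (e.symm (c.symm x))) = c' (c.symm x)
    rw [(key x hx).2.2.2.2]

section manifold

variable {𝕜 E : Type*} [NontriviallyNormedField 𝕜] [NormedAddCommGroup E] [NormedSpace 𝕜 E]
  {I : ModelWithCorners 𝕜 E H} {n : WithTop ℕ∞}

/-- the pulled back structure is a manifold -/
theorem pullManifold [IsManifold I n X] {p : V → X} (hp : IsLocalHomeomorph p) :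
    @IsManifold 𝕜 _ E _ _ H _ I n V _ (pullCharted hp) := by
  let := pullCharted (H := H) hp
  have := pullGroupoid (contDiffGroupoid n I) hp
  exact IsManifold.mk' I n V

/-- the projection is a local diffeomorphism for the pulled back structure -/
theorem pullLocalDiffeo [IsManifold I n X] {p : V → X} (hp : IsLocalHomeomorph p) :
    @IsLocalDiffeomorph 𝕜 _ E _ _ E _ _ H _ H _ I I V _ (pullCharted hp) X _ _ n p := by
  let := pullCharted (H := H) hp
  have hman := pullManifold (I := I) (n := n) hp
  intro v
  set c := chartAt H (p v) with hc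
  set e := loc hp v with he
  have hpe : p = e := loc_coe hp v
  have hcm : c ∈ IsManifold.maximalAtlas I n X := IsManifold.chart_mem_maximalAtlas _
  have hem : e.trans c ∈ IsManifold.maximalAtlas I n V :=
    IsManifold.subset_maximalAtlas ⟨e, hpe, c, chart_mem_atlas H (p v), rfl⟩
  have hsrc : (e.trans c).source = e.source ∩ e ⁻¹' c.source := rfl
  refine ⟨⟨(e.trans c).toPartialEquiv.trans c.symm.toPartialEquiv,
    ((e.trans c).trans c.symm).open_source, ((e.trans c).trans c.symm).open_target, ?_, ?_⟩,
    ?_, ?_⟩
  · exact (contMDiffOn_symm_of_mem_maximalAtlas hcm).comp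
      ((contMDiffOn_of_mem_maximalAtlas hem).mono Set.inter_subset_left)
      fun x hx => hx.2
  · exact (contMDiffOn_symm_of_mem_maximalAtlas hem).comp
      ((contMDiffOn_of_mem_maximalAtlas hcm).mono fun x hx => hx.1)
      fun x hx => hx.2
  · have h1 : v ∈ (e.trans c).source := by
      rw [hsrc]
      refine ⟨mem_loc hp v, ?_⟩
      rw [Set.mem_preimage, ← hpe]
      exact mem_chart_source H (p v)
    exact ⟨h1, ((e.trans c).map_source h1).1⟩
  · intro x hx
    have h1 : x ∈ (e.trans c).source := hx.1
    rw [hsrc] at h1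
    show p x = c.symm (c (e x))
    rw [c.left_inv h1.2, hpe]

end manifold

/-- A continuous lift of a smooth map through a local diffeomorphism is smooth. -/
theorem contMDiff_lift {𝕜 : Type*} [NontriviallyNormedField 𝕜]
    {E : Type*} [NormedAddCommGroup E] [NormedSpace 𝕜 E] {H : Type*} [TopologicalSpace H]
    {I : ModelWithCorners 𝕜 E H}
    {F : Type*} [NormedAddCommGroup F] [NormedSpace 𝕜 F] {H' : Type*} [TopologicalSpace H']
    {J : ModelWithCorners 𝕜 F H'}
    {W : Type*} [TopologicalSpace W] [ChartedSpace H' W]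
    {V : Type*} [TopologicalSpace V] [ChartedSpace H V]
    {X : Type*} [TopologicalSpace X] [ChartedSpace H X] {n : WithTop ℕ∞}
    {p : V → X} (hp : IsLocalDiffeomorph I I n p) {q : W → V} (hq : Continuous q)
    (h : ContMDiff J I n (p ∘ q)) : ContMDiff J I n q := by
  intro w
  obtain ⟨Φ, hΦ, heq⟩ := hp (q w)
  have h1 : ContMDiffAt I I n Φ.symm.toPartialEquiv (p (q w)) := by
    have hm : p (q w) ∈ Φ.target := by
      rw [heq hΦ]; exact Φ.map_source hΦ
    exact (Φ.symm.contMDiffOn (p (q w)) hm).contMDiffAt (Φ.open_target.mem_nhds hm)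
  have h2 : ContMDiffAt J I n (fun w' => Φ.symm.toPartialEquiv (p (q w'))) w :=
    ContMDiffAt.comp w h1 (h w)
  refine h2.congr_of_eventuallyEq ?_
  filter_upwards [hq.continuousAt.preimage_mem_nhds (Φ.open_source.mem_nhds hΦ)] with w' hw'
  have h3 : p (q w') = Φ (q w') := heq hw'
  rw [h3]
  exact (Φ.left_inv hw').symm

/-- The pulled back structure on a covering space of a complex manifold. -/
theorem exists_holomorphicCovering {E : Type*} [NormedAddCommGroup E] [NormedSpace ℂ E]
    {V X : Type*} [TopologicalSpace V] [TopologicalSpace X] [ChartedSpace E X]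
    [IsManifold 𝓘(ℂ, E) ω X] {p : V → X} (hp : IsCoveringMap p) (hs : Function.Surjective p) :
    ∃ _ : ChartedSpace E V, IsManifold 𝓘(ℂ, E) ω V ∧ IsHolomorphicCovering E p :=
  ⟨pullCharted hp.isLocalHomeomorph, pullManifold hp.isLocalHomeomorph, hp, hs,
    pullLocalDiffeo hp.isLocalHomeomorph⟩

end Vale.Agent.P300.H903
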