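import Vale.Agent.P300.H903.Uni
import Vale.Agent.P300.H903.Pull

/-! The universal covering of a complex manifold. -/

open scoped Manifold ContDiff Topology

namespace Vale.Agent.P300.H903

open Metric Vale.Agent.P223.X.U

/-- every point of a space charted on a real normed space lies in the image of an open embedding
of the whole normed space -/
theorem exists_param {F M : Type} [NormedAddCommGroup F] [NormedSpace ℝ F] [TopologicalSpace M]
    [ChartedSpace F M] (x : M) : ∃ ψ : F → M, Topology.IsOpenEmbedding ψ ∧ x ∈ Set.range ψ := by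
  set c := chartAt F x with hc
  have hx : c x ∈ c.target := c.map_source (mem_chart_source F x)
  obtain ⟨r, hr, hb⟩ := Metric.isOpen_iff.1 c.open_target _ hx
  set b : OpenPartialHomeomorph F F := OpenPartialHomeomorph.univBall (c x) r with hb'
  have hbs : b.source = Set.univ := OpenPartialHomeomorph.univBall_source _ _
  have hbt : b.target = ball (c x) r := OpenPartialHomeomorph.univBall_target _ hr
  have hs : (b.trans c.symm).source = Set.univ := by
    rw [OpenPartialHomeomorph.trans_source, hbs, Set.univ_inter]
    refine Set.eq_univ_of_forall fun y => ?_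
    have : b y ∈ b.target := b.map_source (by rw [hbs]; trivial)
    rw [hbt] at this
    exact hb this
  refine ⟨b.trans c.symm, (b.trans c.symm).isOpenEmbedding hs, 0, ?_⟩
  show c.symm (b 0) = x
  rw [hb', OpenPartialHomeomorph.univBall_apply_zero]
  exact c.left_inv (mem_chart_source F x)

/-- The universal covering of a connected Hausdorff space charted on a real normed space. -/
theorem exists_topUC {F : Type} [NormedAddCommGroup F] [NormedSpace ℝ F] (X : Type)
    [TopologicalSpace X] [T2Space X] [ConnectedSpace X] [ChartedSpace F X] :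
    ∃ (V : Type) (_ : TopologicalSpace V) (p : V → X), T2Space V ∧ SimplyConnectedSpace V ∧
      IsCoveringMap p ∧ Function.Surjective p ∧ IsGaloisCovering p := by
  choose ψ hψ hψ' using fun x : X => exists_param (F := F) x
  let A : Atl F X X := ⟨ψ, hψ, fun x => ⟨x, hψ' x⟩⟩
  have := pathConnected A
  obtain ⟨x₀⟩ := (inferInstance : Nonempty X)
  refine ⟨UX A x₀, inferInstance, pr A x₀, t2, sc, pr_cov, fun x => ⟨⟨x, (1 : Pi1 x₀)⟩, rfl⟩, ?_⟩
  intro a b hab
  obtain ⟨γ, hγ⟩ := (smul_orb a b).1 hab
  refine ⟨⟨⟨fun e => γ • e, fun e => γ⁻¹ • e, fun e => inv_smul_smul γ e,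
    fun e => smul_inv_smul γ e⟩, smul_cont γ, smul_cont γ⁻¹⟩, fun v => ?_, hγ⟩
  exact smul_proj γ v

/-- The universal covering of a connected complex manifold. -/
theorem exists_universalCover {E : Type} [NormedAddCommGroup E] [NormedSpace ℂ E] (X : Type)
    [TopologicalSpace X] [T2Space X] [ConnectedSpace X] [ChartedSpace E X]
    [IsManifold 𝓘(ℂ, E) ω X] :
    ∃ (V : Type) (_ : TopologicalSpace V) (_ : ChartedSpace E V) (p : V → X),
      IsManifold 𝓘(ℂ, E) ω V ∧ T2Space V ∧ SimplyConnectedSpace V ∧ ConnectedSpace V ∧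
      LocallyPathConnectedSpace V ∧
      IsHolomorphicCovering E p ∧ IsGaloisCovering p := by
  obtain ⟨V, hV, p, h2, hsc, hcov, hsurj, hgal⟩ := exists_topUC (F := E) X
  obtain ⟨hch, hman, hhol⟩ := exists_holomorphicCovering (E := E) hcov hsurj
  refine ⟨V, hV, hch, p, hman, h2, hsc, inferInstance, ?_, hhol, hgal⟩
  exact ChartedSpace.locallyPathConnectedSpace E V

end Vale.Agent.P300.H903
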