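import Vale.Agent.P300.Defs
import Vale.Agent.P300.CoverDefs
import Vale.Agent.P300.H527.Chain
import Vale.Agent.P300.H903.UC
import Mathlib.Analysis.Complex.Liouville

/-! Liouville on the lifts of a pair of entire curves which together form a `P^1`, and the abstract
end of the disproof: large chains of rational curves in coverings imply that the universal covering
is not holomorphically convex. -/

open scoped Manifold ContDiff Topology

namespace Vale.Agent.P300.H903

section liou

variable {E : Type*} [NormedAddCommGroup E] [NormedSpace ℂ E] {V X : Type*} [TopologicalSpace V]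
  [ChartedSpace E V] [TopologicalSpace X] [ChartedSpace E X]

/-- Holomorphic functions are constant on the lifts of a rational curve to a covering. The rational
curve is given by two entire curves `e`, `e'` with `e w = e' w⁻¹`. -/
theorem const_on_lift {p : V → X} (hp : IsHolomorphicCovering E p) {e e' : C(ℂ, X)}
    (he : ContMDiff 𝓘(ℂ) 𝓘(ℂ, E) ω e) (hee : ∀ w : ℂ, w ≠ 0 → e w = e' w⁻¹)
    {g : V → ℂ} (hg : ContMDiff 𝓘(ℂ, E) 𝓘(ℂ) ω g) (L : C(ℂ, V)) (hL : p ∘ L = e) (a b : ℂ) :
    g (L a) = g (L b) := by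
  obtain ⟨hcov, -, hloc⟩ := hp
  have hLd : ContMDiff 𝓘(ℂ) 𝓘(ℂ, E) ω L :=
    contMDiff_lift hloc L.continuous (by rw [hL]; exact he)
  have hd : Differentiable ℂ (g ∘ L) := by
    have h1 : ContMDiff 𝓘(ℂ) 𝓘(ℂ) ω (g ∘ L) := hg.comp hLd
    exact h1.contDiff.differentiable (by simp)
  have h1 : p (L 1) = e' 1 := by
    have h2 := congrFun hL 1
    simp only [Function.comp_apply] at h2
    rw [h2, hee 1 one_ne_zero, inv_one]
  obtain ⟨L', ⟨hL'1, hL'⟩, -⟩ := hcov.existsUnique_continuousMap_lifts e' 1 (L 1) h1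
  have hconn : IsPreconnected ({0}ᶜ : Set ℂ) :=
    (isConnected_compl_singleton_of_one_lt_rank (by simp) 0).isPreconnected
  have hEq : Set.EqOn (fun w => L' w⁻¹) L ({0}ᶜ : Set ℂ) := by
    refine hcov.eqOn_of_comp_eqOn hconn ?_ L.continuous.continuousOn ?_
      (a := 1) (by simp) ?_
    · exact L'.continuous.comp_continuousOn (continuousOn_inv₀)
    · intro w hw
      have h3 := congrFun hL w
      have h4 := congrFun hL' w⁻¹
      simp only [Function.comp_apply] at h3 h4 ⊢
      rw [h3, h4]
      exact (hee w hw).symm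
    · show L' (1 : ℂ)⁻¹ = L 1
      rw [inv_one, hL'1]
  have hK : IsCompact ((g ∘ L) '' Metric.closedBall 0 1 ∪ (g ∘ L') '' Metric.closedBall 0 1) :=
    ((isCompact_closedBall _ _).image (hg.continuous.comp L.continuous)).union
      ((isCompact_closedBall _ _).image (hg.continuous.comp L'.continuous))
  have hb : Bornology.IsBounded (Set.range (g ∘ L)) := by
    refine hK.isBounded.subset ?_
    rintro _ ⟨w, rfl⟩
    by_cases hw : ‖w‖ ≤ 1
    · exact Or.inl ⟨w, by simpa using hw, rfl⟩
    · push Not at hw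
      have hw0 : w ≠ 0 := by
        rintro rfl
        simp at hw
        linarith
      refine Or.inr ⟨w⁻¹, ?_, ?_⟩
      · rw [mem_closedBall_zero_iff, norm_inv]
        exact inv_le_one_of_one_le₀ hw.le
      · have h5 : L' w⁻¹ = L w := hEq hw0
        show g (L' w⁻¹) = g (L w)
        rw [h5]
  exact hd.apply_eq_apply_of_bounded hb a b

end liou

section fin

variable {E : Type*} [NormedAddCommGroup E] [NormedSpace ℂ E]

/-- **The abstract end.** `α i` is a family of entire curves in `X`, `σ` pairs the two halves of a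
rational curve; `D` is a finite set of points of `X` (the nodes). If some coverings `q : Z → X`
contain chain classes with arbitrarily many nodes then no simply connected holomorphic covering
of `X` is holomorphically convex. -/
theorem not_holomorphicallyConvex {X : Type} [TopologicalSpace X] [ChartedSpace E X] [T1Space X]
    {κ : Type} {α : κ → C(ℂ, X)} {σ : κ → κ} (hα : ∀ i, ContMDiff 𝓘(ℂ) 𝓘(ℂ, E) ω (α i))
    (hσ : ∀ i (w : ℂ), w ≠ 0 → α i w = α (σ i) w⁻¹)
    {D : Set X} (hD : D.Finite)
    (tower : ∀ N : ℕ, ∃ (Z : Type) (_ : TopologicalSpace Z) (q : Z → X) (_ : IsCoveringMap q)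
      (z₀ : Z) (S : Finset Z), q z₀ ∈ D ∧ N ≤ S.card ∧ ∀ z ∈ S, H527.Chn α q z₀ z ∧ q z ∈ D)
    {V : Type*} [TopologicalSpace V] [ChartedSpace E V] [SimplyConnectedSpace V] {p : V → X}
    (hp : IsHolomorphicCovering E p) : ¬ HolomorphicallyConvex E V := by
  have : LocallyPathConnectedSpace V := by
    have : LocallyPathConnectedSpace E := inferInstance
    exact ChartedSpace.locallyPathConnectedSpace E V
  obtain ⟨y₀, -, h⟩ := H527.not_compact_hull (ι := κ) (A := fun _ => ℂ) (α := α) hp.1 hp.2.1 hD
    tower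
  intro hc
  refine h {g | ContMDiff 𝓘(ℂ, E) 𝓘(ℂ) ω g} ?_ (hc {y₀} isCompact_singleton ⟨y₀, rfl⟩)
  intro g hg i L hL a b
  exact const_on_lift hp (hα i) (hσ i) hg L hL a b

end fin

end Vale.Agent.P300.H903
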