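import Vale.Agent.P223.X.U1
import Mathlib.Analysis.Normed.Module.Ball.Homeomorph
import Mathlib.Analysis.Normed.Module.Convex
import Mathlib.Analysis.Convex.Contractible
import Mathlib.Topology.Homotopy.Contractible
import Mathlib.Topology.LocallyConstant.Basic

/-! Universal covering of a space modelled on a normed space (port of P223/X/U2, U3). -/

namespace Vale.Agent.P300.H903

open Topology Metric Vale.Agent.P223.X.U

/-- parametrisations of open subsets which cover `M` -/
structure Atl (F M I : Type) [TopologicalSpace F] [TopologicalSpace M] where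
  ψ : I → F → M
  emb : ∀ i, Topology.IsOpenEmbedding (ψ i)
  cover : ∀ x : M, ∃ i : I, x ∈ Set.range (ψ i)

variable {F M I : Type} [NormedAddCommGroup F] [TopologicalSpace M] (A : Atl F M I)

/-- coordinates -/
noncomputable def co (i : I) (x : M) : F := Function.invFun (A.ψ i) x

theorem co_ψ (i : I) (y : F) : co A i (A.ψ i y) = y :=
  Function.leftInverse_invFun (A.emb i).injective y

theorem ψ_co {i : I} {x : M} (h : x ∈ Set.range (A.ψ i)) : A.ψ i (co A i x) = x :=
  Function.invFun_eq h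

/-- the parametrisation as a continuous map -/
def pm (i : I) : C(F, M) := ⟨A.ψ i, (A.emb i).continuous⟩

theorem continuousOn_co (i : I) : ContinuousOn (co A i) (Set.range (A.ψ i)) := by
  intro x hx
  obtain ⟨y, rfl⟩ := hx
  refine ContinuousAt.continuousWithinAt ?_
  refine (A.emb i).continuousAt_iff.1 ?_
  have : co A i ∘ A.ψ i = id := funext fun z => co_ψ A i z
  rw [this]
  exact continuousAt_id

section
variable [NormedSpace ℝ F] [PathConnectedSpace M] (x₀ : M)

/-- the chart transport -/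
noncomputable def ct (i : I) (y z : F) : Pi1 x₀ := tp x₀ (pm A i) y z

theorem ct_trans (i : I) (y z w : F) : ct A x₀ i y z * ct A x₀ i z w = ct A x₀ i y w :=
  tp_trans x₀ (pm A i) y z w

theorem ct_self (i : I) (y : F) : ct A x₀ i y y = 1 := tp_self x₀ (pm A i) y

/-- transport along a map into a chart -/
theorem tp_chart {S : Type} [TopologicalSpace S] [SimplyConnectedSpace S] (s : C(S, M)) (i : I)
    (hs : ∀ a, s a ∈ Set.range (A.ψ i)) (a b : S) :
    tp x₀ s a b = ct A x₀ i (co A i (s a)) (co A i (s b)) := by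
  let g : C(S, F) := ⟨fun a => co A i (s a),
    (continuousOn_co A i).comp_continuous s.continuous hs⟩
  have h : s = (pm A i).comp g := ContinuousMap.ext fun a => (ψ_co A (hs a)).symm
  have h2 : tp x₀ ((pm A i).comp g) a b = ct A x₀ i (g a) (g b) := tp_comp x₀ (pm A i) g a b
  rw [← h] at h2
  exact h2

/-- the transition functions -/
noncomputable def tau (i j : I) (x : M) : Pi1 x₀ :=
  ct A x₀ i 0 (co A i x) * ct A x₀ j (co A j x) 0

theorem tau_self (i : I) (x : M) : tau A x₀ i i x = 1 := by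
  unfold tau
  rw [ct_trans, ct_self]

theorem tau_comp (i j k : I) (x : M) : tau A x₀ i j x * tau A x₀ j k x = tau A x₀ i k x := by
  unfold tau
  rw [mul_assoc, ← mul_assoc (ct A x₀ j (co A j x) 0), ct_trans, ct_self, one_mul]

/-- The transition functions are locally constant. -/
theorem tau_loc (i j : I) (x : M) (hi : x ∈ Set.range (A.ψ i)) (hj : x ∈ Set.range (A.ψ j)) :
    ∀ᶠ x' in 𝓝 x, tau A x₀ i j x' = tau A x₀ i j x := by
  obtain ⟨y, rfl⟩ := hi
  have ho : IsOpen (A.ψ i ⁻¹' Set.range (A.ψ j)) :=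
    (A.emb j).isOpen_range.preimage (A.emb i).continuous
  obtain ⟨r, hr, hb⟩ := Metric.isOpen_iff.1 ho y hj
  have hmem : A.ψ i '' ball y r ∈ 𝓝 (A.ψ i y) :=
    (A.emb i).isOpenMap.image_mem_nhds (ball_mem_nhds y hr)
  have : ContractibleSpace (ball y r) :=
    (convex_ball y r).contractibleSpace ⟨y, mem_ball_self hr⟩
  let s : C(ball y r, M) := (pm A i).comp ⟨Subtype.val, continuous_subtype_val⟩
  filter_upwards [hmem] with x' hx'
  obtain ⟨z, hz, rfl⟩ := hx'
  have h1 := tp_chart A x₀ s i (fun a => ⟨a, rfl⟩) ⟨y, mem_ball_self hr⟩ ⟨z, hz⟩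
  have h2 := tp_chart A x₀ s j (fun a => hb a.2) ⟨y, mem_ball_self hr⟩ ⟨z, hz⟩
  have h3 : ct A x₀ i (co A i (A.ψ i y)) (co A i (A.ψ i z)) =
    ct A x₀ j (co A j (A.ψ i y)) (co A j (A.ψ i z)) := h1.symm.trans h2
  unfold tau
  rw [← ct_trans A x₀ i 0 (co A i (A.ψ i y)) (co A i (A.ψ i z)), h3, mul_assoc,
    ct_trans]

/-- the bundle -/
noncomputable def core : FiberBundleCore I M (Pi1 x₀) where
  baseSet i := Set.range (A.ψ i)
  isOpen_baseSet i := (A.emb i).isOpen_range
  indexAt x := (A.cover x).choose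
  mem_baseSet_at x := (A.cover x).choose_spec
  coordChange i j x g := g * tau A x₀ i j x
  coordChange_self i x _ v := by
    show v * tau A x₀ i i x = v
    rw [tau_self, mul_one]
  continuousOn_coordChange i j := by
    rintro ⟨x, g⟩ ⟨⟨hi, hj⟩, _⟩
    refine ContinuousAt.continuousWithinAt ?_
    have h1 : ∀ᶠ p : M × Pi1 x₀ in 𝓝 (x, g), tau A x₀ i j p.1 = tau A x₀ i j x :=
      (continuous_fst.tendsto (x, g)).eventually (tau_loc A x₀ i j x hi hj)
    have h2 : ContinuousAt (fun p : M × Pi1 x₀ => p.2 * tau A x₀ i j x) (x, g) :=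
      (continuous_of_discreteTopology (f := fun q : Pi1 x₀ => q * tau A x₀ i j x)).continuousAt.comp
        continuous_snd.continuousAt
    refine h2.congr ?_
    filter_upwards [h1] with p hp
    rw [hp]
  coordChange_comp i j k x _ v := by
    show v * tau A x₀ i j x * tau A x₀ j k x = v * tau A x₀ i k x
    rw [mul_assoc, tau_comp]

/-- the universal covering -/
abbrev UX : Type := (core A x₀).TotalSpace

end


variable {F M I : Type} [NormedAddCommGroup F] [NormedSpace ℝ F] [TopologicalSpace M] (A : Atl F M I)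
  [PathConnectedSpace M]
  (x₀ : M)

/-- the group element of a point -/
def fib {A : Atl F M I} {x₀ : M} (e : UX A x₀) : Pi1 x₀ := e.2

/-- the coordinate in the chart `i` -/
noncomputable def crd {A : Atl F M I} {x₀ : M} (i : I) (e : UX A x₀) : Pi1 x₀ :=
  fib e * tau A x₀ ((core A x₀).indexAt e.1) i e.1

/-- the class of paths from the base point -/
noncomputable def cl {A : Atl F M I} {x₀ : M} (e : UX A x₀) : Pi1 x₀ :=
  fib e * ct A x₀ ((core A x₀).indexAt e.1) 0 (co A ((core A x₀).indexAt e.1) e.1)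

variable {A x₀}

theorem crd_cl (i : I) (e : UX A x₀) : crd i e * ct A x₀ i 0 (co A i e.1) = cl e := by
  unfold crd cl tau
  rw [mul_assoc, mul_assoc, ct_trans, ct_self, mul_one]

theorem ext_cl {e e' : UX A x₀} (h : e.1 = e'.1) (h' : cl e = cl e') : e = e' := by
  obtain ⟨x, v⟩ := e
  obtain ⟨x', v'⟩ := e'
  obtain rfl : x = x' := h
  have h2 : fib (⟨x, v⟩ : UX A x₀) = fib (⟨x, v'⟩ : UX A x₀) := mul_right_cancel h'
  have h3 : v = v' := h2
  rw [h3]

noncomputable instance : MulAction (Pi1 x₀) (UX A x₀) where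
  smul γ e := ⟨e.1, (γ * fib e : Pi1 x₀)⟩
  one_smul e := by
    show (⟨e.1, (1 * fib e : Pi1 x₀)⟩ : UX A x₀) = e
    rw [one_mul]; rfl
  mul_smul γ δ e := by
    show (⟨e.1, (γ * δ * fib e : Pi1 x₀)⟩ : UX A x₀) = ⟨e.1, (γ * (δ * fib e) : Pi1 x₀)⟩
    rw [mul_assoc]

theorem smul_proj (γ : Pi1 x₀) (e : UX A x₀) : (γ • e).1 = e.1 := rfl

theorem crd_smul (i : I) (γ : Pi1 x₀) (e : UX A x₀) : crd i (γ • e) = γ * crd i e :=
  mul_assoc _ _ _

theorem smul_free (γ : Pi1 x₀) (e : UX A x₀) (h : γ • e = e) : γ = 1 := by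
  have h1 : fib (γ • e) = fib e := by rw [h]
  have h2 : γ * fib e = fib e := h1
  exact mul_eq_right.1 h2

theorem smul_orb (e e' : UX A x₀) : e.1 = e'.1 ↔ ∃ γ : Pi1 x₀, γ • e = e' := by
  constructor
  · intro h
    obtain ⟨x, v⟩ := e
    obtain ⟨x', v'⟩ := e'
    obtain rfl : x = x' := h
    refine ⟨fib (⟨x, v'⟩ : UX A x₀) * (fib (⟨x, v⟩ : UX A x₀))⁻¹, ?_⟩
    show (⟨x, (fib (⟨x, v'⟩ : UX A x₀) * (fib (⟨x, v⟩ : UX A x₀))⁻¹ *
      fib (⟨x, v⟩ : UX A x₀) : Pi1 x₀)⟩ : UX A x₀) = ⟨x, v'⟩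
    rw [inv_mul_cancel_right]; rfl
  · rintro ⟨γ, rfl⟩; rfl

/-- the projection -/
noncomputable def pr (A : Atl F M I) (x₀ : M) : C(UX A x₀, M) :=
  ⟨(core A x₀).proj, (core A x₀).continuous_proj⟩

theorem pr_cov : IsCoveringMap (pr A x₀) :=
  FiberBundle.isCoveringMap (F := Pi1 x₀) (E := (core A x₀).Fiber)

theorem crd_cont (j : I) (e : UX A x₀) (h : e.1 ∈ Set.range (A.ψ j)) :
    ContinuousAt (crd (A := A) (x₀ := x₀) j) e := by
  have h1 : ContinuousAt ((core A x₀).localTriv j) e :=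
    ((core A x₀).localTriv j).toOpenPartialHomeomorph.continuousAt h
  exact continuous_snd.continuousAt.comp h1

theorem smul_cont (γ : Pi1 x₀) : Continuous fun e : UX A x₀ => γ • e := by
  refine continuous_iff_continuousAt.2 fun e => ?_
  refine (FiberBundle.continuousAt_totalSpace (F := Pi1 x₀) (E := (core A x₀).Fiber) _).2 ⟨?_, ?_⟩
  · exact (core A x₀).continuous_proj.continuousAt
  · show ContinuousAt (fun e' : UX A x₀ => crd ((core A x₀).indexAt e.1) (γ • e')) e
    simp only [crd_smul]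
    exact (continuous_of_discreteTopology (f := fun q : Pi1 x₀ => γ * q)).continuousAt.comp
      (crd_cont _ e ((core A x₀).mem_baseSet_at e.1))

theorem t2 [T2Space M] : T2Space (UX A x₀) := by
  refine ⟨fun e e' hne => ?_⟩
  by_cases h : e.1 = e'.1
  · exact pr_cov.isSeparatedMap e e' h hne
  · obtain ⟨u, v, hu, hv, hxu, hxv, huv⟩ := t2_separation h
    exact ⟨(pr A x₀) ⁻¹' u, (pr A x₀) ⁻¹' v, hu.preimage (pr A x₀).continuous,
      hv.preimage (pr A x₀).continuous, hxu, hxv, huv.preimage _⟩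

/-! ### paths -/

instance : ContractibleSpace unitInterval :=
  (convex_Icc (0 : ℝ) 1).contractibleSpace ⟨0, by simp⟩

theorem pc_cast {x y x' y' : M} (p : Path.Homotopic.Quotient x y) (hx : x' = x) (hy : y' = y) :
    pc x₀ (p.cast hx hy) = pc x₀ p := by
  subst hx hy
  rw [Path.Homotopic.Quotient.cast_rfl_rfl]

/-- the class of the end of a path -/
theorem cl_path (γ : C(unitInterval, UX A x₀)) :
    cl (γ 0) * tp x₀ ((pr A x₀).comp γ) 0 1 = cl (γ 1) := by
  set f : C(unitInterval, M) := (pr A x₀).comp γ with hf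
  have key : ∀ t : unitInterval, ∀ᶠ t' in 𝓝 t,
      cl (γ t') * tp x₀ f t' 0 = cl (γ t) * tp x₀ f t 0 := by
    intro t
    set j := (core A x₀).indexAt (γ t).1 with hj
    have hm : (γ t).1 ∈ Set.range (A.ψ j) := (core A x₀).mem_baseSet_at _
    have h1 : ∀ᶠ t' in 𝓝 t, crd j (γ t') = crd j (γ t) := by
      have hc : ContinuousAt (fun t' => crd j (γ t')) t :=
        (crd_cont j (γ t) hm).comp γ.continuous.continuousAt
      exact hc.eventually (p := fun y => y = crd j (γ t))
        (by rw [nhds_discrete]; exact Filter.eventually_pure.2 rfl)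
    have ho : IsOpen (f ⁻¹' Set.range (A.ψ j)) := (A.emb j).isOpen_range.preimage f.continuous
    obtain ⟨r, hr, hb⟩ := Metric.isOpen_iff.1 ho t hm
    let S : Set ℝ := Set.Icc 0 1 ∩ ball (t : ℝ) r
    have : ContractibleSpace S :=
      ((convex_Icc (0 : ℝ) 1).inter (convex_ball (t : ℝ) r)).contractibleSpace
        ⟨(t : ℝ), t.2, mem_ball_self hr⟩
    let g : C(S, unitInterval) := ⟨fun s => ⟨s.1, s.2.1⟩, by fun_prop⟩
    have hg : ∀ s : S, f (g s) ∈ Set.range (A.ψ j) := fun s => hb s.2.2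
    filter_upwards [h1, ball_mem_nhds t hr] with t' ht' htr
    let a : S := ⟨(t' : ℝ), t'.2, htr⟩
    let b : S := ⟨(t : ℝ), t.2, mem_ball_self hr⟩
    have h2 := tp_chart A x₀ (f.comp g) j hg a b
    have h3 := tp_comp x₀ f g a b
    have h4 : tp x₀ f t' t = ct A x₀ j (co A j (f t')) (co A j (f t)) := h3.symm.trans h2
    rw [← tp_trans x₀ f t' t 0, h4, ← crd_cl j (γ t'), ht', mul_assoc, ← mul_assoc (ct _ _ _ _ _)]
    have h5 : ct A x₀ j 0 (co A j (γ t').1) * ct A x₀ j (co A j (f t')) (co A j (f t)) =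
      ct A x₀ j 0 (co A j (γ t).1) := ct_trans _ _ _ _ _ _
    rw [h5, ← mul_assoc, crd_cl]
  have h1 : IsLocallyConstant fun t => cl (γ t) * tp x₀ f t 0 :=
    (IsLocallyConstant.iff_eventually_eq _).2 key
  have h2 : cl (γ 0) * tp x₀ f 0 0 = cl (γ 1) * tp x₀ f 1 0 :=
    h1.apply_eq_of_preconnectedSpace 0 1
  rw [tp_self, mul_one] at h2
  rw [h2, mul_assoc, tp_trans, tp_self, mul_one]

theorem cl_path' {e e' : UX A x₀} (p : Path e e') :
    cl e * pc x₀ ((Path.Homotopic.Quotient.mk p).map (pr A x₀)) = cl e' := by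
  have h1 := cl_path (A := A) (x₀ := x₀) ⟨p, p.continuous⟩
  have h0 : (⟨p, p.continuous⟩ : C(unitInterval, UX A x₀)) 0 = e := p.source
  have h0' : (⟨p, p.continuous⟩ : C(unitInterval, UX A x₀)) 1 = e' := p.target
  rw [h0, h0'] at h1
  rw [← h1]
  congr 1
  let idp : Path (0 : unitInterval) 1 := ⟨ContinuousMap.id _, rfl, rfl⟩
  rw [← tp_eq x₀ _ (Path.Homotopic.Quotient.mk idp), ← Path.Homotopic.Quotient.mk_map,
    ← Path.Homotopic.Quotient.mk_map]
  have hx : pr A x₀ e = ((pr A x₀).comp ⟨p, p.continuous⟩) 0 := by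
    show pr A x₀ e = pr A x₀ (p 0); rw [p.source]
  have hy : pr A x₀ e' = ((pr A x₀).comp ⟨p, p.continuous⟩) 1 := by
    show pr A x₀ e' = pr A x₀ (p 1); rw [p.target]
  rw [← pc_cast (Path.Homotopic.Quotient.mk (idp.map _)) hx hy,
    ← Path.Homotopic.Quotient.mk_cast]
  congr 1

theorem sc : SimplyConnectedSpace (UX A x₀) := by
  rw [simply_connected_iff_paths_homotopic']
  constructor
  · refine ⟨⟨⟨x₀, (1 : Pi1 x₀)⟩⟩, fun e e' => ?_⟩
    set g : Pi1 x₀ := (cl e)⁻¹ * cl e' with hg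
    obtain ⟨q, hq⟩ := Path.Homotopic.Quotient.mk_surjective
      (cp x₀ g : Path.Homotopic.Quotient e.1 e'.1)
    have cov : IsCoveringMap (pr A x₀) := pr_cov
    have hq0 : (q : C(unitInterval, M)) 0 = pr A x₀ e := q.source
    set L := cov.liftPath (q : C(unitInterval, M)) e hq0 with hL
    have h0 : L 0 = e := cov.liftPath_zero _ _ hq0
    have hl : (pr A x₀) ∘ L = q := cov.liftPath_lifts _ _ hq0
    have h1 : (L 1).1 = e'.1 := (congrFun hl 1).trans q.target
    let P : Path e (L 1) := ⟨L, h0, rfl⟩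
    have h2 := cl_path' P
    have h3 : pc x₀ ((Path.Homotopic.Quotient.mk P).map (pr A x₀)) = g := by
      rw [← Path.Homotopic.Quotient.mk_map]
      have h4 : P.map (pr A x₀).continuous = q.cast rfl h1 := by
        ext t; exact congrFun hl t
      rw [h4]
      exact (pc_cast (Path.Homotopic.Quotient.mk q) rfl h1).trans (by rw [hq, pc_cp])
    rw [h3, hg, mul_inv_cancel_left] at h2
    have h5 : L 1 = e' := ext_cl h1 h2.symm
    exact ⟨P.cast rfl h5.symm⟩
  · intro e e' p₁ p₂
    refine Path.Homotopic.Quotient.exact ?_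
    refine pr_cov.injective_path_homotopic_map e e' ?_
    refine pc_inj x₀ ?_
    have h1 := cl_path' p₁
    have h2 := cl_path' p₂
    exact mul_left_cancel (h1.trans h2.symm)

/-- connected manifolds are path connected -/
theorem pathConnected {F M I : Type} [NormedAddCommGroup F] [NormedSpace ℝ F] [TopologicalSpace M]
    [ConnectedSpace M]
    (A : Atl F M I) : PathConnectedSpace M := by
  obtain ⟨x₀⟩ := (inferInstance : Nonempty M)
  have hj : ∀ (i : I) (x y : M), x ∈ Set.range (A.ψ i) → y ∈ Set.range (A.ψ i) → Joined x y := by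
    rintro i _ _ ⟨y, rfl⟩ ⟨z, rfl⟩
    exact ⟨(PathConnectedSpace.somePath y z).map (A.emb i).continuous⟩
  have ho : IsOpen (pathComponent x₀) := by
    refine isOpen_iff_mem_nhds.2 fun x hx => ?_
    obtain ⟨i, hi⟩ := A.cover x
    refine Filter.mem_of_superset ((A.emb i).isOpen_range.mem_nhds hi) fun y hy => ?_
    exact Joined.trans hx (hj i x y hi hy)
  have hc : IsClosed (pathComponent x₀) := by
    refine ⟨isOpen_iff_mem_nhds.2 fun x hx => ?_⟩
    obtain ⟨i, hi⟩ := A.cover x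
    refine Filter.mem_of_superset ((A.emb i).isOpen_range.mem_nhds hi) fun y hy hy' => ?_
    exact hx (Joined.trans hy' (hj i y x hy hi))
  have h := IsClopen.eq_univ ⟨hc, ho⟩ ⟨x₀, mem_pathComponent_self x₀⟩
  refine ⟨⟨x₀⟩, fun x y => ?_⟩
  have hx : x ∈ pathComponent x₀ := by rw [h]; trivial
  have hy : y ∈ pathComponent x₀ := by rw [h]; trivial
  exact Joined.trans (Joined.symm hx) hy


end Vale.Agent.P300.H903
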